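import Vale.Agent.P244.H109.Circle

open Set Module

namespace Vale.Agent.Results.P244.ExactRates

open Vale.Agent.P244.Flow Vale.Agent.P244.H426 Vale.Agent.P244.H109

/-- (1) The scalar-curvature extension conjecture for Ricci flow is false.
(2) In every dimension `n ≥ 41` there is a closed connected manifold `M` which carries, for every
`0 < T < ∞`, a Ricci flow `g(t)`, `0 ≤ t < T`, with bounded scalar curvature that does not extend
past `T`, with the following exact rates, where `α = 12/(39 - √1209) = 2.837...`: at some point,
for two different coordinate vectors `u`, `w`, `g_t(u,u)` is of exact order `(T - t)^α`, the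
sectional curvature of the plane spanned by `u`, `w` is of exact order `(T - t)^(-α)` (so the
singularity is of Type II), the Ricci curvature in the direction `u` is larger than `c/(T - t)`,
for every `c < α/2`, and in some direction smaller than `-c/(T - t)`, for every `c < α/(2(n-1))`,
at times arbitrarily close to `T`. The product of `g` with any Ricci flow with bounded scalar
curvature on any nonempty manifold `N` (closed or not), for instance with the flow of an Einstein
metric, has the same properties.
(3) `M = S^21 × S^20` has all these properties. -/
theorem result :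
    ¬ ExtensionConjecture ∧
    (∀ n : ℕ, 41 ≤ n →
      ∃ (V : Type) (_ : NormedAddCommGroup V) (_ : NormedSpace ℝ V) (v : Basis (Fin n) ℝ V)
        (M : Type) (_ : TopologicalSpace M) (_ : ChartedSpace V M), CarriesSingularFlows v M) ∧
    CarriesSingularFlows (prodFrame (std 21) (std 20)) (Sphere 21 × Sphere 20) := by
  refine ⟨not_conjecture, fun n hn => ?_, ?_⟩
  · obtain ⟨V, i1, i2, v, M, i3, i4, hM, h⟩ := sing_all n hn
    exact ⟨V, i1, i2, v, M, i3, i4, carries v hM h⟩
  · obtain ⟨v, hv⟩ := basis_spheres
    rw [← hv]
    refine carries v closed_spheres fun T hT => ?_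
    obtain ⟨g, h1, h2, h3⟩ := base_flow' hT
    refine ⟨g, ?_, ?_, ?_⟩
    · rw [hv]; exact h1
    · rw [hv]; exact h2
    · rw [hv]; exact h3

end Vale.Agent.Results.P244.ExactRates
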