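import Vale.Agent.P244.FlowDefs
import Vale.Agent.P244.H426.Defs
import Vale.Agent.P244.H426.Base

open scoped Manifold ContDiff
open Set Module

namespace Vale.Agent.Results.P244.ProductsEveryFactor

open Vale.Agent.P244.Flow Vale.Agent.P244.H426

/-- The scalar-curvature extension conjecture for Ricci flow is false (1), in every dimension
`n ≥ 41` and with every maximal time `T` (2), and on `S^21 × S^20 × N` for every manifold `N`
(in particular every closed one): for every `T > 0` there is one Ricci flow `g` on `S^21 × S^20`,
singular at `T` with bounded scalar curvature, such that the product of `g` with every Ricci flow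
with bounded scalar curvature on a manifold `N` is again singular at `T` with bounded scalar
curvature (3). -/
theorem result :
    ¬ ExtensionConjecture ∧
    (∀ n : ℕ, 41 ≤ n → ∀ T : ℝ, 0 < T → ExistsSingular n T) ∧
    ∀ T : ℝ, 0 < T → ∃ g : ℝ → Tensor V0 M0, Singular v0 g T ∧ SingularTimesAll v0 g T := by
  refine ⟨?_, fun n hn T hT => every_dim hn hT, fun T hT => ?_⟩
  · intro h
    obtain ⟨V, i1, i2, v, M, i3, i4, i5, i6, i7, i8, g, hs⟩ :=
      every_dim (n := 41) le_rfl one_pos
    exact hs.maximal (h 41 (by norm_num) V v M 1 one_pos g hs.flow hs.bounded)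
  · have hm := man0
    obtain ⟨g, hg, hb, hd⟩ := base_T hT
    exact ⟨g, ⟨hg, hb, hd.not_extends v0 hT, hd, hd.ricciUnbounded v0 hT hg hb⟩,
      singularTimesAll v0 hT hg hb hd⟩

end Vale.Agent.Results.P244.ProductsEveryFactor
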